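import Mathlib
import Vale.Agent.P336.Defs
import Vale.Agent.P336.Main

namespace Vale.Agent.Results.P336.DepthThree

open Vale.Agent.P336

/-- There is a language decided by a deterministic polynomial-time machine (finite control,
finitely many stacks over finite alphabets, raw bit input) whose membership functions, and their
complements, need OR-AND-OR circuits with at least `2 ^ (c * sqrt (n log n / log log n))` gates for
all large `n`. -/
theorem result : ∃ L : List Bool → Bool,
    (∃ M : Turing.TM2ComputableInPolyTime (id : List Bool → List Bool) (fun b : Bool => [b]) L,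
      ∀ k : M.tm.K, Finite (M.tm.Γ k)) ∧
    ∃ c : ℝ, 0 < c ∧ ∃ n₀ : ℕ, ∀ n : ℕ, n₀ ≤ n →
      (2 : ℝ) ^ (c * Real.sqrt (n * Real.log n / Real.log (Real.log n))) ≤
        S3 (fun x : Fin n → Bool => L (List.ofFn x)) ∧
      (2 : ℝ) ^ (c * Real.sqrt (n * Real.log n / Real.log (Real.log n))) ≤
        S3 (fun x : Fin n → Bool => !L (List.ofFn x)) :=
  ⟨lang, lang_machine, 1 / 2000, by norm_num, main_bound⟩

end Vale.Agent.Results.P336.DepthThree
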